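import Mathlib

/-!
# Fourier analysis on the discrete cube: expansion, permutations, flips, hypercontractivity
-/

namespace Vale.Agent.P238

open Finset

variable {ι : Type*} [Fintype ι] [DecidableEq ι]

/-- The sign of a bit. -/
def sg (b : Bool) : ℝ := if b then -1 else 1

omit [Fintype ι] [DecidableEq ι] in
theorem sg_mul_self (b : Bool) : sg b * sg b = 1 := by cases b <;> simp [sg]

/-- The Walsh character of a set. -/
def chi (S : Finset ι) (x : ι → Bool) : ℝ := ∏ i ∈ S, sg (x i)

/-- The uniform average over the cube. -/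
noncomputable def av (f : (ι → Bool) → ℝ) : ℝ := (∑ x, f x) / Fintype.card (ι → Bool)

/-- The Fourier coefficient. -/
noncomputable def coef (f : (ι → Bool) → ℝ) (S : Finset ι) : ℝ := av fun x => f x * chi S x

/-- Flipping one bit. -/
def flipAt (a : ι) (x : ι → Bool) : ι → Bool := Function.update x a (!x a)

/-- Permuting the coordinates. -/
def act (π : Equiv.Perm ι) (x : ι → Bool) : ι → Bool := fun i => x (π i)

omit [DecidableEq ι] in
theorem cube_card_pos [DecidableEq ι] : (0 : ℝ) < Fintype.card (ι → Bool) := by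
  exact_mod_cast Fintype.card_pos

theorem av_const (c : ℝ) : av (fun _ : ι → Bool => c) = c := by
  have := cube_card_pos (ι := ι)
  unfold av
  rw [Finset.sum_const, Finset.card_univ, nsmul_eq_mul]
  field_simp

theorem av_add (f g : (ι → Bool) → ℝ) : av (fun x => f x + g x) = av f + av g := by
  simp [av, Finset.sum_add_distrib, add_div]

theorem av_sub (f g : (ι → Bool) → ℝ) : av (fun x => f x - g x) = av f - av g := by
  simp [av, Finset.sum_sub_distrib, sub_div]

theorem av_mul_left (c : ℝ) (f : (ι → Bool) → ℝ) : av (fun x => c * f x) = c * av f := by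
  simp [av, ← Finset.mul_sum, mul_div_assoc]

theorem av_sum {κ : Type*} (s : Finset κ) (f : κ → (ι → Bool) → ℝ) :
    av (fun x => ∑ k ∈ s, f k x) = ∑ k ∈ s, av (f k) := by
  simp only [av]
  rw [Finset.sum_comm, Finset.sum_div]

theorem av_mono {f g : (ι → Bool) → ℝ} (h : ∀ x, f x ≤ g x) : av f ≤ av g :=
  div_le_div_of_nonneg_right (Finset.sum_le_sum fun x _ => h x) (Nat.cast_nonneg _)

theorem av_nonneg {f : (ι → Bool) → ℝ} (h : ∀ x, 0 ≤ f x) : 0 ≤ av f :=
  div_nonneg (Finset.sum_nonneg fun x _ => h x) (Nat.cast_nonneg _)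

theorem av_equiv (e : (ι → Bool) ≃ (ι → Bool)) (f : (ι → Bool) → ℝ) :
    av (fun x => f (e x)) = av f := by
  simp only [av]
  rw [Equiv.sum_comp e f]

theorem av_congr {f g : (ι → Bool) → ℝ} (h : ∀ x, f x = g x) : av f = av g := by
  rw [funext h]

omit [Fintype ι] in
theorem flipAt_invol (a : ι) : Function.Involutive (flipAt a : (ι → Bool) → ι → Bool) := by
  intro x
  funext i
  by_cases h : i = a
  · subst h; simp [flipAt]
  · simp [flipAt, h]

theorem av_flipAt (a : ι) (f : (ι → Bool) → ℝ) : av (fun x => f (flipAt a x)) = av f :=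
  av_equiv (Function.Involutive.toPerm _ (flipAt_invol a)) f

theorem av_act (π : Equiv.Perm ι) (f : (ι → Bool) → ℝ) : av (fun x => f (act π x)) = av f :=
  av_equiv ⟨act π, act π.symm, fun x => by funext i; simp [act],
    fun x => by funext i; simp [act]⟩ f

omit [Fintype ι] in
theorem chi_flipAt (S : Finset ι) (a : ι) (x : ι → Bool) :
    chi S (flipAt a x) = if a ∈ S then -chi S x else chi S x := by
  by_cases h : a ∈ S
  · rw [if_pos h, chi, chi, ← Finset.mul_prod_erase S _ h,
      ← Finset.mul_prod_erase S (fun i => sg (x i)) h, ← neg_mul]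
    congr 1
    · cases hb : x a <;> simp [flipAt, sg, hb]
    · exact Finset.prod_congr rfl fun i hi => by simp [flipAt, (Finset.mem_erase.mp hi).1]
  · rw [if_neg h]
    refine Finset.prod_congr rfl fun i hi => ?_
    have : i ≠ a := fun e => h (e ▸ hi)
    simp [flipAt, this]

omit [Fintype ι] [DecidableEq ι] in
theorem chi_mul_self (S : Finset ι) (x : ι → Bool) : chi S x * chi S x = 1 := by
  rw [chi, ← Finset.prod_mul_distrib]
  exact Finset.prod_eq_one fun i _ => sg_mul_self _

omit [Fintype ι] [DecidableEq ι] in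
theorem chi_act (π : Equiv.Perm ι) (S : Finset ι) (x : ι → Bool) :
    chi S (act π x) = chi (S.map π.toEmbedding) x := by
  simp [chi, act, Finset.prod_map]

theorem av_zero_of_odd {f : (ι → Bool) → ℝ} (a : ι) (h : ∀ x, f (flipAt a x) = -f x) :
    av f = 0 := by
  have h1 := av_flipAt a f
  have h2 : av (fun x => f (flipAt a x)) = -av f := by
    rw [av_congr h]
    simpa using av_mul_left (-1) f
  linarith

theorem av_chi_mul (S T : Finset ι) :
    av (fun x => chi S x * chi T x) = if S = T then 1 else 0 := by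
  split_ifs with h
  · subst h
    simp only [chi_mul_self]
    exact av_const 1
  · obtain ⟨a, ha⟩ : ∃ a, ¬ (a ∈ S ↔ a ∈ T) := by
      by_contra hc
      push Not at hc
      exact h (Finset.ext hc)
    refine av_zero_of_odd a fun x => ?_
    rw [chi_flipAt, chi_flipAt]
    by_cases h1 : a ∈ S <;> by_cases h2 : a ∈ T <;> simp_all

theorem sum_chi_chi (x y : ι → Bool) :
    ∑ S : Finset ι, chi S x * chi S y = if x = y then (Fintype.card (ι → Bool) : ℝ) else 0 := by
  have h : ∑ S : Finset ι, chi S x * chi S y = ∏ i, (1 + sg (x i) * sg (y i)) := by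
    rw [Finset.prod_one_add, Finset.powerset_univ]
    simp only [chi, Finset.prod_mul_distrib]
  rw [h]
  split_ifs with hxy
  · subst hxy
    simp [sg_mul_self, Fintype.card_bool]
    norm_num
  · obtain ⟨i, hi⟩ := Function.ne_iff.mp hxy
    refine Finset.prod_eq_zero (Finset.mem_univ i) ?_
    cases hx : x i <;> cases hy : y i <;> simp_all [sg]

/-- Fourier expansion. -/
theorem expansion (f : (ι → Bool) → ℝ) (x : ι → Bool) :
    ∑ S : Finset ι, coef f S * chi S x = f x := by
  have hN := cube_card_pos (ι := ι)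
  simp only [coef, av, div_mul_eq_mul_div, Finset.sum_mul]
  rw [← Finset.sum_div, Finset.sum_comm]
  simp only [mul_assoc, ← Finset.mul_sum, sum_chi_chi]
  simp only [mul_ite, mul_zero, Finset.sum_ite_eq', Finset.mem_univ, if_true]
  field_simp

/-- Parseval for a sum of characters indexed injectively. -/
theorem av_sq_sum {κ : Type*} (s : Finset κ) (φ : κ → Finset ι) (c : κ → ℝ)
    (hφ : Set.InjOn φ s) :
    av (fun x => (∑ k ∈ s, c k * chi (φ k) x) ^ 2) = ∑ k ∈ s, c k ^ 2 := by
  classical
  simp only [pow_two, Finset.sum_mul_sum]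
  rw [av_sum]
  refine Finset.sum_congr rfl fun k hk => ?_
  rw [av_sum]
  have : ∀ l ∈ s, av (fun x => c k * chi (φ k) x * (c l * chi (φ l) x))
      = if l = k then c k * c k else 0 := by
    intro l hl
    rw [show (fun x => c k * chi (φ k) x * (c l * chi (φ l) x))
        = fun x => (c k * c l) * (chi (φ k) x * chi (φ l) x) from funext fun x => by ring,
      av_mul_left, av_chi_mul]
    by_cases e : l = k
    · subst e; simp
    · have : φ k ≠ φ l := fun h => e (hφ hl hk h.symm)
      simp [e, this]
  rw [Finset.sum_congr rfl this, Finset.sum_ite_eq', if_pos hk]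

theorem parseval (f : (ι → Bool) → ℝ) : av (fun x => f x ^ 2) = ∑ S, coef f S ^ 2 := by
  rw [← av_sq_sum Finset.univ id (coef f) Function.injective_id.injOn]
  simp only [id, expansion]

theorem coef_sub (f g : (ι → Bool) → ℝ) (S : Finset ι) :
    coef (fun x => f x - g x) S = coef f S - coef g S := by
  simp [coef, sub_mul, av_sub]

theorem coef_act (f : (ι → Bool) → ℝ) (π : Equiv.Perm ι) (S : Finset ι) :
    coef (fun x => f (act π x)) (S.map π.toEmbedding) = coef f S := by
  unfold coef
  rw [← av_act π (fun x => f x * chi S x)]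
  exact av_congr fun x => by rw [chi_act]

theorem coef_flipAt (f : (ι → Bool) → ℝ) (a : ι) (S : Finset ι) :
    coef (fun x => f (flipAt a x)) S = if a ∈ S then -coef f S else coef f S := by
  unfold coef
  rw [← av_flipAt a (fun x => f (flipAt a x) * chi S x)]
  simp only [flipAt_invol a _, chi_flipAt]
  split_ifs with h
  · simp only [mul_neg]
    simpa using av_mul_left (-1) (fun x => f x * chi S x)
  · rfl

/-- The squared `L²` displacement of `f` under a self-map of the cube. -/
noncomputable def disp (f : (ι → Bool) → ℝ) (T : (ι → Bool) → ι → Bool) : ℝ :=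
  av fun x => (f x - f (T x)) ^ 2

theorem disp_nonneg (f : (ι → Bool) → ℝ) (T : (ι → Bool) → ι → Bool) : 0 ≤ disp f T :=
  av_nonneg fun _ => sq_nonneg _

theorem disp_act (f : (ι → Bool) → ℝ) (π : Equiv.Perm ι) :
    disp f (act π) = ∑ S : Finset ι, (coef f (S.map π.toEmbedding) - coef f S) ^ 2 := by
  unfold disp
  rw [parseval (fun x => f x - f (act π x))]
  refine (Fintype.sum_equiv (Equiv.finsetCongr π) _ _ fun S => ?_).symm
  rw [Equiv.finsetCongr_apply, coef_sub, coef_act]

theorem disp_flip (f : (ι → Bool) → ℝ) (a : ι) :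
    disp f (flipAt a) = 4 * ∑ S : Finset ι, if a ∈ S then coef f S ^ 2 else 0 := by
  unfold disp
  rw [parseval (fun x => f x - f (flipAt a x)), Finset.mul_sum]
  refine Finset.sum_congr rfl fun S _ => ?_
  rw [coef_sub, coef_flipAt]
  split_ifs <;> ring

theorem sum_disp_flip (f : (ι → Bool) → ℝ) :
    ∑ a, disp f (flipAt a) = 4 * ∑ S : Finset ι, (S.card : ℝ) * coef f S ^ 2 := by
  simp only [disp_flip, ← Finset.mul_sum]
  rw [Finset.sum_comm]
  congr 1
  refine Finset.sum_congr rfl fun S _ => ?_
  rw [Finset.sum_ite_mem, Finset.univ_inter, Finset.sum_const, nsmul_eq_mul]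

/-- Cauchy–Schwarz. -/
theorem av_mul_sq_le (f g : (ι → Bool) → ℝ) :
    av (fun x => f x * g x) ^ 2 ≤ av (fun x => f x ^ 2) * av (fun x => g x ^ 2) := by
  simp only [av, div_pow, div_mul_div_comm]
  rw [← pow_two]
  exact div_le_div_of_nonneg_right
    (Finset.sum_mul_sq_le_sq_mul_sq _ _ _) (sq_nonneg _)

/-- Bonami's fourth-moment inequality. -/
theorem bonami (U : Finset ι) : ∀ (d : ℕ) (c : Finset ι → ℝ),
    (∀ S, S ⊆ U → d < S.card → c S = 0) →
    av (fun x => (∑ S ∈ U.powerset, c S * chi S x) ^ 4)
      ≤ 9 ^ d * av (fun x => (∑ S ∈ U.powerset, c S * chi S x) ^ 2) ^ 2 := by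
  classical
  induction U using Finset.induction with
  | empty =>
    intro d c _
    simp only [Finset.powerset_empty, Finset.sum_singleton, chi, Finset.prod_empty, mul_one,
      av_const]
    have h9 : (1 : ℝ) ≤ 9 ^ d := one_le_pow₀ (by norm_num)
    have h4 : (c ∅ ^ 2) ^ 2 = c ∅ ^ 4 := by ring
    rw [h4]
    exact le_mul_of_one_le_left (by positivity) h9
  | @insert a U ha ih =>
    intro d c hc
    set A : (ι → Bool) → ℝ := fun x => ∑ S ∈ U.powerset, c S * chi S x with hA
    set B : (ι → Bool) → ℝ := fun x => ∑ S ∈ U.powerset, c (insert a S) * chi S x with hB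
    have hsplit : ∀ x, ∑ S ∈ (insert a U).powerset, c S * chi S x = A x + sg (x a) * B x := by
      intro x
      rw [Finset.sum_powerset_insert ha]
      congr 1
      rw [hB, Finset.mul_sum]
      refine Finset.sum_congr rfl fun S hS => ?_
      have hna : a ∉ S := fun h => ha (Finset.mem_powerset.mp hS h)
      rw [chi, Finset.prod_insert hna, ← chi]
      ring
    have hind : ∀ (k : Finset ι → ℝ) x,
        ∑ S ∈ U.powerset, k S * chi S (flipAt a x) = ∑ S ∈ U.powerset, k S * chi S x := by
      intro k x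
      refine Finset.sum_congr rfl fun S hS => ?_
      rw [chi_flipAt, if_neg fun h => ha (Finset.mem_powerset.mp hS h)]
    have hodd : ∀ G : ℝ → ℝ → ℝ, av (fun x => sg (x a) * G (A x) (B x)) = 0 := by
      intro G
      refine av_zero_of_odd a fun x => ?_
      simp only [hA, hB, hind]
      cases h : x a <;> simp [flipAt, sg, h]
    have hsg : ∀ b, sg b ^ 2 = 1 := fun b => by rw [pow_two, sg_mul_self]
    have h2 : av (fun x => (∑ S ∈ (insert a U).powerset, c S * chi S x) ^ 2)
        = av (fun x => A x ^ 2) + av (fun x => B x ^ 2) := by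
      rw [av_congr (g := fun x => (A x ^ 2 + B x ^ 2) + sg (x a) * (2 * A x * B x)) fun x => by
        rw [hsplit]; linear_combination (B x ^ 2) * hsg (x a)]
      rw [av_add, hodd (fun p q => 2 * p * q), add_zero, av_add]
    have h4 : av (fun x => (∑ S ∈ (insert a U).powerset, c S * chi S x) ^ 4)
        = av (fun x => A x ^ 4) + 6 * av (fun x => A x ^ 2 * B x ^ 2) + av (fun x => B x ^ 4) := by
      rw [av_congr (g := fun x => (A x ^ 4 + 6 * (A x ^ 2 * B x ^ 2) + B x ^ 4)
          + sg (x a) * (4 * A x ^ 3 * B x + 4 * A x * B x ^ 3)) fun x => by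
        rw [hsplit]
        linear_combination (6 * A x ^ 2 * B x ^ 2 + 4 * A x * B x ^ 3 * sg (x a)
          + B x ^ 4 * (sg (x a) ^ 2 + 1)) * hsg (x a)]
      rw [av_add, hodd (fun p q => 4 * p ^ 3 * q + 4 * p * q ^ 3), add_zero, av_add, av_add,
        av_mul_left]
    rw [h2, h4]
    set u := av (fun x => A x ^ 2) with hu
    set v := av (fun x => B x ^ 2) with hv
    have hu0 : 0 ≤ u := av_nonneg fun _ => sq_nonneg _
    have hv0 : 0 ≤ v := av_nonneg fun _ => sq_nonneg _
    have hA4 : av (fun x => A x ^ 4) ≤ 9 ^ d * u ^ 2 :=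
      ih d c fun S hS hd => hc S (hS.trans (Finset.subset_insert _ _)) hd
    cases d with
    | zero =>
      have hB0 : ∀ x, B x = 0 := fun x => by
        refine Finset.sum_eq_zero fun S hS => ?_
        rw [hc (insert a S) (Finset.insert_subset_insert _ (Finset.mem_powerset.mp hS))
          (Finset.card_pos.mpr ⟨a, Finset.mem_insert_self _ _⟩), zero_mul]
      have e1 : av (fun x => A x ^ 2 * B x ^ 2) = 0 := by simp [hB0, av_const]
      have e2 : av (fun x => B x ^ 4) = 0 := by simp [hB0, av_const]
      have e3 : v = 0 := by simp [hv, hB0, av_const]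
      rw [e1, e2, e3]
      simpa using hA4
    | succ e =>
      have hB4 : av (fun x => B x ^ 4) ≤ 9 ^ e * v ^ 2 := by
        refine ih e (fun S => c (insert a S)) fun S hS hd => ?_
        refine hc _ (Finset.insert_subset_insert _ hS) ?_
        rw [Finset.card_insert_of_notMem fun h => ha (hS h)]
        omega
      have hm0 : 0 ≤ av (fun x => A x ^ 2 * B x ^ 2) :=
        av_nonneg fun _ => mul_nonneg (sq_nonneg _) (sq_nonneg _)
      have hcs := av_mul_sq_le (fun x => A x ^ 2) (fun x => B x ^ 2)
      simp only [← pow_mul] at hcs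
      norm_num at hcs
      have hA40 : 0 ≤ av (fun x => A x ^ 4) := av_nonneg fun _ => by positivity
      have hmid : av (fun x => A x ^ 2 * B x ^ 2) ≤ 3 * 9 ^ e * u * v := by
        refine (sq_le_sq₀ hm0 (by positivity)).mp (hcs.trans ?_)
        calc av (fun x => A x ^ 4) * av (fun x => B x ^ 4)
            ≤ (9 ^ (e + 1) * u ^ 2) * (9 ^ e * v ^ 2) :=
              mul_le_mul hA4 hB4 (av_nonneg fun _ => by positivity) (by positivity)
          _ = (3 * 9 ^ e * u * v) ^ 2 := by rw [pow_succ]; ring
      have h9 : (0 : ℝ) < 9 ^ e := by positivity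
      rw [pow_succ] at hA4 ⊢
      nlinarith [sq_nonneg v, mul_nonneg (mul_nonneg h9.le hu0) hv0,
        mul_nonneg h9.le (sq_nonneg v)]

end Vale.Agent.P238
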