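import Mathlib

/-!
# Edit distance of binary words and its `ℓ₁` distortion
-/

namespace Vale.Agent.P238

/-- One insertion, deletion or substitution of a single symbol. -/
inductive EditStep : List Bool → List Bool → Prop
  | ins (l r : List Bool) (a : Bool) : EditStep (l ++ r) (l ++ a :: r)
  | del (l r : List Bool) (a : Bool) : EditStep (l ++ a :: r) (l ++ r)
  | sub (l r : List Bool) (a b : Bool) : EditStep (l ++ a :: r) (l ++ b :: r)

/-- `EditChain k x y`: some `k` successive edit operations transform `x` into `y`. -/
inductive EditChain : ℕ → List Bool → List Bool → Prop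
  | refl (x : List Bool) : EditChain 0 x x
  | tail {k : ℕ} {x y z : List Bool} : EditChain k x y → EditStep y z → EditChain (k + 1) x z

/-- The edit distance: the least number of operations transforming `x` into `y`. -/
noncomputable def editDist (x y : List Bool) : ℕ := sInf {k : ℕ | EditChain k x y}

/-- The edit distance between two binary words of length `n`. -/
noncomputable def wordDist {n : ℕ} (x y : Fin n → Bool) : ℕ :=
  editDist (List.ofFn x) (List.ofFn y)

/-- The Banach space `ℓ₁` of absolutely summable real sequences. -/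
abbrev EllOne : Type := lp (fun _ : ℕ => ℝ) 1

/-- The `ℓ₁` distortion of `({0,1}^n, ED)`: the infimum of `A * B` over maps `f` into `ℓ₁` with
`‖f x - f y‖ ≤ A * ED(x,y)` and `ED(x,y) ≤ B * ‖f x - f y‖`. -/
noncomputable def editDistortion (n : ℕ) : ℝ :=
  sInf {t : ℝ | ∃ (f : (Fin n → Bool) → EllOne) (A B : ℝ), 0 < A ∧ 0 < B ∧ t = A * B ∧
    ∀ x y, ‖f x - f y‖ ≤ A * (wordDist x y : ℝ) ∧ (wordDist x y : ℝ) ≤ B * ‖f x - f y‖}

end Vale.Agent.P238
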