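import Vale.Agent.P238.Defs

/-!
# Elementary facts on edit distance
-/

namespace Vale.Agent.P238

open List

theorem chain_trans {k l : ℕ} {x y z : List Bool} (h : EditChain k x y) (h' : EditChain l y z) :
    EditChain (k + l) x z := by
  induction h' with
  | refl _ => exact h
  | tail _ hs ih => exact EditChain.tail (ih h) hs

theorem chain_del (A B : List Bool) :
    ∀ P : List Bool, EditChain P.length (A ++ P ++ B) (A ++ B) := by
  intro P
  induction P with
  | nil => simpa using EditChain.refl (A ++ B)
  | cons a P ih =>
    have h1 : EditChain 1 (A ++ (a :: P) ++ B) (A ++ P ++ B) := by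
      refine EditChain.tail (EditChain.refl _) ?_
      simpa using EditStep.del A (P ++ B) a
    simpa [Nat.add_comm] using chain_trans h1 ih

theorem chain_ins (A B : List Bool) :
    ∀ P : List Bool, EditChain P.length (A ++ B) (A ++ P ++ B) := by
  intro P
  induction P with
  | nil => simpa using EditChain.refl (A ++ B)
  | cons a P ih =>
    have h1 : EditStep (A ++ P ++ B) (A ++ (a :: P) ++ B) := by
      simpa using EditStep.ins A (P ++ B) a
    exact EditChain.tail ih h1

theorem chain_exists (x y : List Bool) : EditChain (x.length + y.length) x y := by
  have h1 := chain_del [] [] x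
  have h2 := chain_ins [] [] y
  simp only [List.nil_append, List.append_nil] at h1 h2
  exact chain_trans h1 h2

theorem editDist_le {k : ℕ} {x y : List Bool} (h : EditChain k x y) : editDist x y ≤ k :=
  Nat.sInf_le h

theorem editDist_chain (x y : List Bool) : EditChain (editDist x y) x y :=
  Nat.sInf_mem (s := {k : ℕ | EditChain k x y}) ⟨_, chain_exists x y⟩

/-- Exchanging two adjacent segments costs at most twice the length of either. -/
theorem editDist_block (A P Q C : List Bool) :
    editDist (A ++ P ++ Q ++ C) (A ++ Q ++ P ++ C) ≤ 2 * P.length ∧
      editDist (A ++ P ++ Q ++ C) (A ++ Q ++ P ++ C) ≤ 2 * Q.length := by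
  constructor
  · have h1 : EditChain P.length (A ++ P ++ Q ++ C) (A ++ Q ++ C) := by
      simpa [List.append_assoc] using chain_del A (Q ++ C) P
    have h2 : EditChain P.length (A ++ Q ++ C) (A ++ Q ++ P ++ C) := by
      simpa [List.append_assoc] using chain_ins (A ++ Q) C P
    rw [two_mul]
    exact editDist_le (chain_trans h1 h2)
  · have h1 : EditChain Q.length (A ++ P ++ Q ++ C) (A ++ P ++ C) := by
      simpa [List.append_assoc] using chain_del (A ++ P) C Q
    have h2 : EditChain Q.length (A ++ P ++ C) (A ++ Q ++ P ++ C) := by
      simpa [List.append_assoc] using chain_ins A (P ++ C) Q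
    rw [two_mul]
    exact editDist_le (chain_trans h1 h2)

/-- Dropping one symbol of a word costs a common subsequence at most one symbol. -/
theorem sublist_remove {s l r : List Bool} {a : Bool} (h : s <+ l ++ a :: r) :
    ∃ t, t <+ s ∧ t <+ l ++ r ∧ s.length ≤ t.length + 1 := by
  obtain ⟨s1, s2, rfl, h1, h2⟩ := List.sublist_append_iff.mp h
  cases h2 with
  | cons _ h2' => exact ⟨s1 ++ s2, List.Sublist.refl _, h1.append h2', by omega⟩
  | cons_cons _ h2' =>
    refine ⟨s1 ++ _, List.Sublist.append (List.Sublist.refl _) (List.sublist_cons_self _ _),
      h1.append h2', ?_⟩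
    simp only [List.length_append, List.length_cons]
    omega

theorem chain_common {k : ℕ} {x y : List Bool} (h : EditChain k x y) :
    ∃ l, l <+ x ∧ l <+ y ∧ x.length ≤ l.length + k := by
  induction h with
  | refl x => exact ⟨x, List.Sublist.refl _, List.Sublist.refl _, by omega⟩
  | tail _ hs ih =>
    obtain ⟨l, hlx, hly, hlen⟩ := ih
    cases hs with
    | ins p r a =>
      exact ⟨l, hlx, hly.trans (List.Sublist.append (List.Sublist.refl _)
        (List.sublist_cons_self _ _)), by omega⟩
    | del p r a =>
      obtain ⟨t, h1, h2, h3⟩ := sublist_remove hly
      exact ⟨t, h1.trans hlx, h2, by omega⟩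
    | sub p r a b =>
      obtain ⟨t, h1, h2, h3⟩ := sublist_remove hly
      exact ⟨t, h1.trans hlx, h2.trans (List.Sublist.append (List.Sublist.refl _)
        (List.sublist_cons_self _ _)), by omega⟩

/-- The words of length `R` having `l` as a subsequence, each found at least once. -/
def superWords : ℕ → List Bool → Finset (List Bool)
  | 0, [] => {[]}
  | 0, _ :: _ => ∅
  | R + 1, [] => (superWords R []).image (List.cons false) ∪ (superWords R []).image (List.cons true)
  | R + 1, a :: l => (superWords R l).image (List.cons a) ∪
      (superWords R (a :: l)).image (List.cons (!a))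

theorem mem_superWords : ∀ (R : ℕ) (l z : List Bool), z.length = R → l <+ z →
    z ∈ superWords R l := by
  intro R
  induction R with
  | zero =>
    intro l z hz hs
    obtain rfl := List.length_eq_zero_iff.mp hz
    obtain rfl := List.sublist_nil.mp hs
    simp [superWords]
  | succ R ih =>
    intro l z hz hs
    cases z with
    | nil => simp at hz
    | cons b z =>
      simp only [List.length_cons, Nat.add_right_cancel_iff] at hz
      cases l with
      | nil =>
        have := ih [] z hz (List.nil_sublist _)
        cases b <;> simp [superWords, this]
      | cons a l =>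
        by_cases hab : b = a
        · subst hab
          have := ih l z hz (List.cons_sublist_cons.mp hs)
          simp [superWords, this]
        · have hb : b = !a := by cases a <;> cases b <;> simp_all
          subst hb
          have hs' : a :: l <+ z := by
            rcases List.sublist_cons_iff.mp hs with h | ⟨r, hr, _⟩
            · exact h
            · cases a <;> simp at hr
          have := ih (a :: l) z hz hs'
          simp [superWords, this]

theorem card_superWords : ∀ (R : ℕ) (l : List Bool),
    (superWords R l).card ≤ R.choose l.length * 2 ^ (R - l.length) := by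
  intro R
  induction R with
  | zero => intro l; cases l <;> simp [superWords]
  | succ R ih =>
    intro l
    cases l with
    | nil =>
      have h := ih []
      simp only [List.length_nil, Nat.choose_zero_right, one_mul, Nat.sub_zero] at h ⊢
      simp only [superWords]
      refine (Finset.card_union_le _ _).trans ?_
      refine (Nat.add_le_add Finset.card_image_le Finset.card_image_le).trans ?_
      rw [pow_succ]
      omega
    | cons a l =>
      simp only [superWords]
      refine (Finset.card_union_le _ _).trans ?_
      refine (Nat.add_le_add Finset.card_image_le Finset.card_image_le).trans ?_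
      refine (Nat.add_le_add (ih l) (ih (a :: l))).trans ?_
      simp only [List.length_cons]
      rw [Nat.choose_succ_succ, Nat.add_mul, show R + 1 - (l.length + 1) = R - l.length by omega]
      refine Nat.add_le_add_left ?_ _
      exact Nat.mul_le_mul_left _ (Nat.pow_le_pow_right (by norm_num) (by omega))

/-- The words of length `R` with a common subsequence of length `j` with `w`. -/
def nearWords (R j : ℕ) (w : List Bool) : Finset (List Bool) :=
  (List.sublistsLen j w).toFinset.biUnion (superWords R)

theorem card_nearWords (R j : ℕ) (w : List Bool) :
    (nearWords R j w).card ≤ w.length.choose j * (R.choose j * 2 ^ (R - j)) := by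
  unfold nearWords
  refine (Finset.card_biUnion_le_card_mul _ _ (R.choose j * 2 ^ (R - j)) ?_).trans ?_
  · intro l hl
    rw [List.mem_toFinset, List.mem_sublistsLen] at hl
    simpa [hl.2] using card_superWords R l
  · refine Nat.mul_le_mul_right _ ((List.toFinset_card_le _).trans ?_)
    rw [List.length_sublistsLen]

theorem mem_nearWords {R j : ℕ} {w z l : List Bool} (hz : z.length = R) (hlz : l <+ z)
    (hlw : l <+ w) (hj : j ≤ l.length) : z ∈ nearWords R j w := by
  refine Finset.mem_biUnion.mpr ⟨l.take j, ?_, ?_⟩
  · rw [List.mem_toFinset, List.mem_sublistsLen]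
    exact ⟨(List.take_sublist _ _).trans hlw, by simp [hj]⟩
  · exact mem_superWords R _ z hz ((List.take_sublist _ _).trans hlz)

/-- If exchanging the middle segments `U`, `V` costs at most `m`, then `V` is close to a
subword of the first part of the word. -/
theorem block_far (A U V C : List Bool) (R m : ℕ) (hU : U.length = R) (hV : V.length = R)
    (h : editDist (A ++ U ++ V ++ C) (A ++ V ++ U ++ C) ≤ m) :
    V ∈ nearWords R (R - m)
      (((A ++ U ++ V ++ C).take (A.length + R + m)).drop (A.length - m)) := by
  obtain ⟨l, hlx, hly, hlen⟩ := chain_common (editDist_chain (A ++ U ++ V ++ C) (A ++ V ++ U ++ C))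
  have hy : l <+ A ++ (V ++ (U ++ C)) := by simpa [List.append_assoc] using hly
  obtain ⟨l1, l23, rfl, h1, h23⟩ := List.sublist_append_iff.mp hy
  obtain ⟨l2, l3, rfl, h2, h3⟩ := List.sublist_append_iff.mp h23
  simp only [List.length_append] at hlen
  have b1 := h1.length_le
  have b2 := h2.length_le
  have b3 := h3.length_le
  simp only [List.length_append] at b3
  refine mem_nearWords hV h2 ?_ (by omega)
  have hx : (l1 ++ l2) ++ l3 <+ A ++ U ++ V ++ C := by simpa [List.append_assoc] using hlx
  obtain ⟨r1, r2, hr, hr1, hr2⟩ := List.append_sublist_iff.mp hx
  have c2 := hr2.length_le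
  have c1 : r1.length + r2.length = A.length + R + R + C.length := by
    have := congrArg List.length hr
    simp only [List.length_append] at this
    omega
  have hpre : l1 ++ l2 <+ (A ++ U ++ V ++ C).take (A.length + R + m) := by
    refine hr1.trans ?_
    rw [hr, List.take_append, List.take_of_length_le (by omega)]
    exact List.sublist_append_left _ _
  have hd := hpre.drop (l1.length)
  rw [List.drop_left] at hd
  exact hd.trans ((List.drop_sublist_drop_left _ (by omega)))

end Vale.Agent.P238
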